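import Vale.Agent.Lib.P308F.SubH

namespace Vale.Agent.Lib.P308F

open Finset Vale.Agent.Lib.P308 Vale.Agent.Lib.P308E

variable {V : Type*} [Fintype V] [DecidableEq V] (G : SimpleGraph V) [DecidableRel G.Adj]

lemma closeUpH_isM {c : ℕ} {σ : V → V} {a b : V} (h : IsStateH G (c + 2) σ a b)
    (hab : G.Adj a b) :
    IsM G (closeUp σ a b) ∧ (holes (closeUp σ a b)).card = c := by
  obtain ⟨⟨hinv, hadj⟩, hne, hfa, hfb, hcard⟩ := h
  have hσa : ∀ z, z ≠ a → z ≠ b → σ z ≠ a := by
    intro z hza hzb hz
    have : σ (σ z) = a := by rw [hz, hfa]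
    rw [hinv] at this
    exact hza this
  have hσb : ∀ z, z ≠ a → z ≠ b → σ z ≠ b := by
    intro z hza hzb hz
    have : σ (σ z) = b := by rw [hz, hfb]
    rw [hinv] at this
    exact hzb this
  refine ⟨⟨?_, ?_⟩, ?_⟩
  · intro v
    by_cases hva : v = a
    · subst hva
      simp [closeUp, hne.symm]
    · by_cases hvb : v = b
      · subst hvb
        simp [closeUp, hva]
      · simp [closeUp, hva, hvb, hσa v hva hvb, hσb v hva hvb, hinv]
  · intro v hv
    by_cases hva : v = a
    · subst hva
      simpa [closeUp] using hab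
    · by_cases hvb : v = b
      · subst hvb
        simpa [closeUp, hva] using hab.symm
      · have h1 : closeUp σ a b v = σ v := by simp [closeUp, hva, hvb]
        rw [h1] at hv ⊢
        exact hadj v hv
  · have hset : holes (closeUp σ a b) = ((holes σ).erase a).erase b := by
      ext z
      simp only [holes, mem_filter, mem_univ, true_and, mem_erase]
      by_cases hza : z = a
      · subst hza
        simp [closeUp, hne.symm]
      · by_cases hzb : z = b
        · subst hzb
          simp [closeUp, hza, hne]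
        · simp [closeUp, hza, hzb]
    have ha : a ∈ holes σ := by simp [holes, hfa]
    have hb : b ∈ (holes σ).erase a := by simp [holes, hfb, hne.symm]
    rw [hset, card_erase_of_mem hb, card_erase_of_mem ha, hcard]
    rfl

/-- States with adjacent marked holes inject into (vertex, matching with two holes less). -/
theorem exitH_le (c : ℕ) :
    ((StatesH G (c + 2)).filter fun s => G.Adj s.2.1 s.2.2).card
      ≤ Fintype.card V * (Mat G c).ncard := by
  classical
  have key := count_le (γ := V)
    (((StatesH G (c + 2)).filter fun s => G.Adj s.2.1 s.2.2 : Finset ((V → V) × V × V)) :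
      Set ((V → V) × V × V))
    (Mat G c)
    (fun s M v => v = s.2.1 ∧ IsStateH G (c + 2) s.1 s.2.1 s.2.2 ∧
      Rep M (closeUp s.1 s.2.1 s.2.2)) ?_ ?_
  · rwa [Set.ncard_coe_finset] at key
  · rintro ⟨σ, a, b⟩ hs
    have hs' : IsStateH G (c + 2) σ a b ∧ G.Adj a b := by
      simpa [StatesH] using hs
    obtain ⟨h1, h2⟩ := closeUpH_isM G hs'.1 hs'.2
    obtain ⟨M, hrep, hM⟩ := exists_subH G h1
    exact ⟨M, ⟨hM, by rw [rep_holes G hrep, h2]⟩, a, rfl, hs'.1, hrep⟩
  · rintro ⟨σ, a, b⟩ ⟨σ', a', b'⟩ M v ⟨h1, h2, h3⟩ ⟨h1', h2', h3'⟩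
    simp only at h1 h2 h3 h1' h2' h3'
    have haa : a = a' := h1.symm.trans h1'
    subst haa
    have hfun : closeUp σ a b = closeUp σ' a b' := rep_fun_unique h3 h3'
    have hbb : b = b' := by
      have := congrFun hfun a
      simpa [closeUp] using this
    subst hbb
    have hσ : σ = σ' := by
      funext z
      by_cases hza : z = a
      · subst hza
        rw [h2.2.2.1, h2'.2.2.1]
      · by_cases hzb : z = b
        · subst hzb
          rw [h2.2.2.2.1, h2'.2.2.2.1]
        · have := congrFun hfun z
          simpa [closeUp, hza, hzb] using this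
    subst hσ
    rfl

end Vale.Agent.Lib.P308F
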