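import Vale.Agent.Lib.P308F.Defs

namespace Vale.Agent.Lib.P308F

open Finset Vale.Agent.Lib.P308 Vale.Agent.Lib.P308E

variable {V : Type*} [Fintype V] [DecidableEq V] (G : SimpleGraph V) [DecidableRel G.Adj]

theorem sum_statesH (c : ℕ) (f : (V → V) → V → V → ℝ) :
    ∑ s ∈ StatesH G c, f s.1 s.2.1 s.2.2
      = ∑ σ ∈ Invs G c, ∑ a ∈ holes σ, ∑ b ∈ (holes σ).erase a, f σ a b := by
  classical
  unfold StatesH Invs
  rw [Finset.sum_filter, Finset.sum_filter, ← Finset.univ_product_univ, Finset.sum_product]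
  apply Finset.sum_congr rfl
  intro σ _
  rw [← Finset.univ_product_univ, Finset.sum_product]
  by_cases hσ : IsM G σ ∧ (holes σ).card = c
  · rw [if_pos hσ]
    unfold holes
    rw [Finset.sum_filter]
    apply Finset.sum_congr rfl
    intro a _
    by_cases ha : σ a = a
    · rw [if_pos ha]
      have : (univ.filter fun z => σ z = z).erase a = univ.filter fun z => σ z = z ∧ a ≠ z := by
        ext z
        simp only [mem_erase, mem_filter, mem_univ, true_and]
        constructor
        · rintro ⟨h1, h2⟩; exact ⟨h2, fun h => h1 h.symm⟩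
        · rintro ⟨h1, h2⟩; exact ⟨fun h => h2 h.symm, h1⟩
      rw [this, Finset.sum_filter]
      apply Finset.sum_congr rfl
      intro b _
      by_cases hb : σ b = b ∧ a ≠ b
      · rw [if_pos hb, if_pos]
        exact ⟨hσ.1, hb.2, ha, hb.1, hσ.2⟩
      · rw [if_neg hb, if_neg]
        intro hs
        exact hb ⟨hs.2.2.2.1, hs.2.1⟩
    · rw [if_neg ha]
      apply Finset.sum_eq_zero
      intro b _
      rw [if_neg]
      intro hs
      exact ha hs.2.2.1
  · rw [if_neg hσ]
    apply Finset.sum_eq_zero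
    intro a _
    apply Finset.sum_eq_zero
    intro b _
    rw [if_neg]
    intro hs
    exact hσ ⟨hs.1, hs.2.2.2.2⟩

end Vale.Agent.Lib.P308F
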