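import Vale.Agent.Lib.P308F.PerInv
import Vale.Agent.Lib.P308F.SumStates
import Vale.Agent.Lib.P308F.ExitH

namespace Vale.Agent.Lib.P308F

open Finset Vale.Agent.Lib.P308 Vale.Agent.Lib.P308E

variable {V : Type*} [Fintype V] [DecidableEq V] (G : SimpleGraph V) [DecidableRel G.Adj]

theorem combH_zero (p : ℝ) (c : ℕ) :
    ∑ s ∈ StatesH G c, wbH G p 0 s.1 s.2.1 s.2.2
      = p * (((StatesH G c).filter fun s => G.Adj s.2.1 s.2.2).card : ℝ) := by
  simp only [wbH]
  rw [← Finset.sum_filter, Finset.sum_const, nsmul_eq_mul, mul_comm]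

theorem ratioH {p : ℝ} (hp : 0 < p) (d g I h : ℕ) (E : ℝ) (hE : 0 ≤ E)
    (hd : ∀ v, G.degree v ≤ d) (hg : 2 ≤ g) (h1 : FracExpH G p g I (h + 1))
    (h2 : JoinedE G ((h + 1) * g ^ I) E) :
    ((Mat G (2 * (h + 1))).ncard : ℝ) * E
      ≤ (p * d) ^ (2 * I) * (Fintype.card V * (Mat G (2 * h)).ncard) := by
  classical
  have hp0 : 0 ≤ p := hp.le
  have hA : ((Mat G (2 * (h + 1))).ncard : ℝ) ≤ ((Invs G (2 * (h + 1))).card : ℝ) := by
    exact_mod_cast mat_le_invs G (2 * (h + 1))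
  have hB : ((Invs G (2 * (h + 1))).card : ℝ) * (p * E)
      ≤ ∑ s ∈ StatesH G (2 * (h + 1)), wbH G p (2 * I) s.1 s.2.1 s.2.2 := by
    rw [sum_statesH G (2 * (h + 1)) (fun σ a b => wbH G p (2 * I) σ a b)]
    have := Finset.card_nsmul_le_sum (Invs G (2 * (h + 1)))
      (fun σ => ∑ a ∈ holes σ, ∑ b ∈ (holes σ).erase a, wbH G p (2 * I) σ a b) (p * E)
      (fun σ hs => by
        have hs' : IsM G σ ∧ (holes σ).card = 2 * (h + 1) := by
          simpa [Invs] using hs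
        exact perInv G hp0 σ hs'.1 g I (h + 1) E hs'.2 hg h1 h2)
    simpa [nsmul_eq_mul] using this
  have hC := wbH_sum_le G hp0 d hd (2 * (h + 1)) (2 * I)
  rw [combH_zero] at hC
  have hD : ((((StatesH G (2 * (h + 1))).filter fun s => G.Adj s.2.1 s.2.2).card : ℕ) : ℝ)
      ≤ (Fintype.card V : ℝ) * ((Mat G (2 * h)).ncard : ℝ) := by
    have := exitH_le G (2 * h)
    have e : 2 * h + 2 = 2 * (h + 1) := by ring
    rw [e] at this
    exact_mod_cast this
  have hpd : 0 ≤ (p * d) ^ (2 * I) := by positivity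
  have hF : (((Mat G (2 * (h + 1))).ncard : ℝ) * E) * p
      ≤ ((p * d) ^ (2 * I) * ((Fintype.card V : ℝ) * ((Mat G (2 * h)).ncard : ℝ))) * p := by
    calc (((Mat G (2 * (h + 1))).ncard : ℝ) * E) * p
        = ((Mat G (2 * (h + 1))).ncard : ℝ) * (p * E) := by ring
      _ ≤ ((Invs G (2 * (h + 1))).card : ℝ) * (p * E) :=
          mul_le_mul_of_nonneg_right hA (mul_nonneg hp0 hE)
      _ ≤ (p * d) ^ (2 * I) *
            (p * (((StatesH G (2 * (h + 1))).filter fun s => G.Adj s.2.1 s.2.2).card : ℝ)) :=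
          le_trans hB hC
      _ ≤ (p * d) ^ (2 * I) * (p * ((Fintype.card V : ℝ) * ((Mat G (2 * h)).ncard : ℝ))) := by
          apply mul_le_mul_of_nonneg_left _ hpd
          exact mul_le_mul_of_nonneg_left hD hp0
      _ = _ := by ring
  exact le_of_mul_le_mul_right hF hp

end Vale.Agent.Lib.P308F
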