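import Vale.Agent.Lib.P308E.Final

namespace Vale.Agent.Lib.P308F

open Finset Vale.Agent.Lib.P308 Vale.Agent.Lib.P308E

variable {V : Type*} [Fintype V] [DecidableEq V] (G : SimpleGraph V) [DecidableRel G.Adj]

/-- The uncovered vertices (holes) of the matching coded by the involution `σ`. -/
def holes (σ : V → V) : Finset V := univ.filter fun z => σ z = z

/-- `σ` codes a matching with `c` holes, two of which, `a ≠ b`, are marked. -/
def IsStateH (c : ℕ) (σ : V → V) (a b : V) : Prop :=
  IsM G σ ∧ a ≠ b ∧ σ a = a ∧ σ b = b ∧ (holes σ).card = c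

open Classical in
/-- All states with `c` holes. -/
noncomputable def StatesH (c : ℕ) : Finset ((V → V) × V × V) :=
  univ.filter fun s => IsStateH G c s.1 s.2.1 s.2.2

open Classical in
/-- All matchings with `c` holes, as involutions. -/
noncomputable def Invs (c : ℕ) : Finset (V → V) :=
  univ.filter fun σ => IsM G σ ∧ (holes σ).card = c

/-- Weighted number of hole walks (the marked hole `a` moves to `σ x`, `x` a covered neighbour
of `a`; then the marked holes exchange roles; at the end they must be adjacent). -/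
noncomputable def wbH (p : ℝ) : ℕ → (V → V) → V → V → ℝ
  | 0, _, a, b => if G.Adj a b then p else 0
  | k + 1, σ, a, b =>
      ∑ x ∈ (G.neighborFinset a).filter (fun x => σ x ≠ x), p * wbH p k (mv σ a x) b (σ x)

/-- The matchings of `G` with exactly `c` uncovered vertices. -/
def Mat (c : ℕ) : Set G.Subgraph := {M | M.IsMatching ∧ (M.vertsᶜ).ncard = c}

/-- Fractional expansion for layers of sizes `h, h g, ..., h g ^ (I - 1)`. -/
def FracExpH (p : ℝ) (g I h : ℕ) : Prop :=
  ∀ L C : Finset V, h ≤ L.card → g * L.card ≤ h * g ^ I → C.card ≤ (4 + 4 * g) * L.card →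
    ((g * L.card : ℕ) : ℝ) ≤ ∑ x ∈ Cᶜ, min 1 (p * ((G.neighborFinset x ∩ L).card : ℝ))

/-- Any two sets of size `s` span at least `E` (ordered) adjacent pairs. -/
def JoinedE (s : ℕ) (E : ℝ) : Prop :=
  ∀ S T : Finset V, S.card = s → T.card = s →
    E ≤ ∑ a ∈ S, ∑ b ∈ T, (if G.Adj a b then (1 : ℝ) else 0)

end Vale.Agent.Lib.P308F
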