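import Mathlib

namespace Vale.Agent.Lib.P308F

theorem succ_pow_le_three_mul (n : ℕ) : (n + 1) ^ n ≤ 3 * n ^ n := by
  rcases Nat.eq_zero_or_pos n with rfl | hn
  · norm_num
  · have hn' : (0 : ℝ) < n := by exact_mod_cast hn
    have h1 : ((n : ℝ) + 1) / n ≤ Real.exp (1 / n) := by
      have := Real.add_one_le_exp (1 / (n : ℝ))
      have h2 : ((n : ℝ) + 1) / n = 1 / n + 1 := by field_simp; ring
      rw [h2]; exact this
    have h3 : (((n : ℝ) + 1) / n) ^ n ≤ Real.exp 1 := by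
      calc (((n : ℝ) + 1) / n) ^ n ≤ (Real.exp (1 / n)) ^ n :=
            pow_le_pow_left₀ (by positivity) h1 n
        _ = Real.exp 1 := by
            rw [← Real.exp_nat_mul]; congr 1; field_simp
    have h4 : Real.exp 1 < 3 := lt_trans Real.exp_one_lt_d9 (by norm_num)
    have h5 : ((n : ℝ) + 1) ^ n ≤ 3 * (n : ℝ) ^ n := by
      rw [div_pow] at h3
      have h6 : ((n : ℝ) + 1) ^ n / (n : ℝ) ^ n ≤ 3 := le_trans h3 h4.le
      rwa [div_le_iff₀ (by positivity)] at h6
    exact_mod_cast h5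

theorem pow_le_fact_mul (n : ℕ) : n ^ n ≤ n.factorial * 3 ^ n := by
  induction n with
  | zero => norm_num
  | succ n ih =>
    calc (n + 1) ^ (n + 1) = (n + 1) * (n + 1) ^ n := by ring
      _ ≤ (n + 1) * (3 * n ^ n) := Nat.mul_le_mul_left _ (succ_pow_le_three_mul n)
      _ ≤ (n + 1) * (3 * (n.factorial * 3 ^ n)) :=
          Nat.mul_le_mul_left _ (Nat.mul_le_mul_left _ ih)
      _ = (n + 1).factorial * 3 ^ (n + 1) := by
          rw [Nat.factorial_succ]; ring

end Vale.Agent.Lib.P308F
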