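import Mathlib

/-!
# P308: spectral facts for regular graphs (mixing, second moment, growth condition)
-/

namespace Vale.Agent.Lib.P308F.Sp

open Finset

variable {V : Type*} [Fintype V] [DecidableEq V] (G : SimpleGraph V) [DecidableRel G.Adj]

/-- number of neighbours of `x` in `L`. -/
def eN (L : Finset V) (x : V) : ℕ := (G.neighborFinset x ∩ L).card

/-- the adjacency operator. -/
def Aop (f : V → ℝ) (v : V) : ℝ := ∑ w ∈ G.neighborFinset v, f w

/-- the adjacency operator has norm at most `lam` on the functions of zero sum. -/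
def SpectralGap (lam : ℝ) : Prop :=
  ∀ f : V → ℝ, ∑ v, f v = 0 → ∑ v, (Aop G f v) ^ 2 ≤ lam ^ 2 * ∑ v, (f v) ^ 2

theorem eN_eq_sum (L : Finset V) (x : V) :
    (eN G L x : ℝ) = ∑ w ∈ G.neighborFinset x, (if w ∈ L then (1 : ℝ) else 0) := by
  unfold eN
  rw [Finset.sum_ite_mem, Finset.sum_const, nsmul_eq_mul, mul_one]

theorem sum_eN {d : ℕ} (hreg : G.IsRegularOfDegree d) (L : Finset V) :
    ∑ x, (eN G L x : ℝ) = d * L.card := by
  have h1 : ∀ x, (eN G L x : ℝ) = ∑ w ∈ L, (if G.Adj x w then (1 : ℝ) else 0) := by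
    intro x
    unfold eN
    rw [Finset.sum_ite, Finset.sum_const, Finset.sum_const_zero, add_zero, nsmul_eq_mul, mul_one]
    congr 2
    ext w
    simp [and_comm]
  simp_rw [h1]
  rw [Finset.sum_comm]
  have h2 : ∀ w ∈ L, ∑ x, (if G.Adj x w then (1 : ℝ) else 0) = d := by
    intro w _
    rw [Finset.sum_ite, Finset.sum_const, Finset.sum_const_zero, add_zero, nsmul_eq_mul, mul_one]
    have : (Finset.univ.filter fun x => G.Adj x w) = G.neighborFinset w := by
      ext x
      simp [G.adj_comm]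
    rw [this, G.card_neighborFinset_eq_degree, hreg w]
  rw [Finset.sum_congr rfl h2, Finset.sum_const, nsmul_eq_mul, mul_comm]

/-- the centred neighbour count has small second moment. -/
theorem centred_sq {d : ℕ} (hreg : G.IsRegularOfDegree d) {lam : ℝ} (hs : SpectralGap G lam)
    (L : Finset V) :
    ∑ x, ((eN G L x : ℝ) - d * L.card / Fintype.card V) ^ 2 ≤ lam ^ 2 * L.card := by
  rcases isEmpty_or_nonempty V with hV | hV
  · simp
    positivity
  have hN : (0 : ℝ) < Fintype.card V := by exact_mod_cast Fintype.card_pos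
  set N : ℝ := (Fintype.card V : ℝ) with hNdef
  set l : ℝ := (L.card : ℝ) with hl
  have hlN : l ≤ N := by
    rw [hl, hNdef]; exact_mod_cast Finset.card_le_univ L
  have hl0 : 0 ≤ l := by rw [hl]; positivity
  let f : V → ℝ := fun v => (if v ∈ L then (1 : ℝ) else 0) - l / N
  have hind : ∑ v : V, (if v ∈ L then (1 : ℝ) else 0) = l := by
    rw [Finset.sum_ite_mem, Finset.univ_inter, Finset.sum_const, nsmul_eq_mul, mul_one]
  have hf0 : ∑ v, f v = 0 := by
    simp only [f]
    rw [Finset.sum_sub_distrib, hind, Finset.sum_const, Finset.card_univ, nsmul_eq_mul, ← hNdef]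
    field_simp
    simp
  have hA : ∀ v, Aop G f v = (eN G L v : ℝ) - d * l / N := by
    intro v
    simp only [Aop, f]
    rw [Finset.sum_sub_distrib, ← eN_eq_sum, Finset.sum_const, G.card_neighborFinset_eq_degree,
      hreg v, nsmul_eq_mul]
    ring
  have hf2 : ∑ v, (f v) ^ 2 ≤ l := by
    have h1 : ∀ v, (f v) ^ 2 = (if v ∈ L then (1 : ℝ) else 0) * (1 - 2 * (l / N)) + (l / N) ^ 2 := by
      intro v
      simp only [f]
      split_ifs <;> ring
    simp_rw [h1]
    rw [Finset.sum_add_distrib, ← Finset.sum_mul, hind, Finset.sum_const, Finset.card_univ,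
      nsmul_eq_mul]
    have : l * (1 - 2 * (l / N)) + N * (l / N) ^ 2 = l - l ^ 2 / N := by
      field_simp
      ring
    rw [← hNdef, this]
    have : 0 ≤ l ^ 2 / N := by positivity
    linarith
  have h := hs f hf0
  simp_rw [hA] at h
  calc _ ≤ lam ^ 2 * ∑ v, (f v) ^ 2 := h
    _ ≤ lam ^ 2 * l := by gcongr

/-- second moment of the neighbour counts. -/
theorem sum_eN_sq {d : ℕ} (hreg : G.IsRegularOfDegree d) {lam : ℝ} (hs : SpectralGap G lam)
    (L : Finset V) :
    ∑ x, (eN G L x : ℝ) ^ 2 ≤ (d : ℝ) ^ 2 * (L.card : ℝ) ^ 2 / Fintype.card V + lam ^ 2 * L.card := by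
  rcases isEmpty_or_nonempty V with hV | hV
  · simp
    positivity
  have hN : (0 : ℝ) < Fintype.card V := by exact_mod_cast Fintype.card_pos
  have h := centred_sq G hreg hs L
  have hsum := sum_eN G hreg L
  set N : ℝ := (Fintype.card V : ℝ) with hNdef
  set l : ℝ := (L.card : ℝ) with hl
  have h1 : ∀ x, ((eN G L x : ℝ) - d * l / N) ^ 2
      = (eN G L x : ℝ) ^ 2 - 2 * (d * l / N) * (eN G L x : ℝ) + (d * l / N) ^ 2 := by
    intro x; ring
  simp_rw [h1] at h
  rw [Finset.sum_add_distrib, Finset.sum_sub_distrib, ← Finset.mul_sum, hsum, Finset.sum_const,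
    Finset.card_univ, nsmul_eq_mul, ← hNdef] at h
  have h2 : 2 * (d * l / N) * (d * l) - N * (d * l / N) ^ 2 = (d : ℝ) ^ 2 * l ^ 2 / N := by
    field_simp
    ring
  linarith

/-- expander mixing, squared form. -/
theorem mixing_sq {d : ℕ} (hreg : G.IsRegularOfDegree d) {lam : ℝ} (hs : SpectralGap G lam)
    (L C : Finset V) :
    (∑ x ∈ C, (eN G L x : ℝ) - d * L.card * C.card / Fintype.card V) ^ 2
      ≤ lam ^ 2 * L.card * C.card := by
  have h := centred_sq G hreg hs L
  have h1 : ∑ x ∈ C, (eN G L x : ℝ) - d * L.card * C.card / Fintype.card V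
      = ∑ x ∈ C, ((eN G L x : ℝ) - d * L.card / Fintype.card V) := by
    rw [Finset.sum_sub_distrib, Finset.sum_const, nsmul_eq_mul]
    ring
  rw [h1]
  calc (∑ x ∈ C, ((eN G L x : ℝ) - d * L.card / Fintype.card V)) ^ 2
      ≤ C.card * ∑ x ∈ C, ((eN G L x : ℝ) - d * L.card / Fintype.card V) ^ 2 :=
        sq_sum_le_card_mul_sum_sq
    _ ≤ C.card * ∑ x, ((eN G L x : ℝ) - d * L.card / Fintype.card V) ^ 2 := by
        gcongr
        exact Finset.subset_univ _
    _ ≤ C.card * (lam ^ 2 * L.card) := by gcongr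
    _ = lam ^ 2 * L.card * C.card := by ring

theorem min_one_ge (t : ℝ) : t - t ^ 2 / 4 ≤ min 1 t := by
  apply le_min
  · nlinarith [sq_nonneg (t / 2 - 1)]
  · nlinarith [sq_nonneg t]

/-- growth condition (H1): small sets have many weighted neighbours outside a small forbidden
set. -/
theorem growth {d : ℕ} (hd : 0 < d) (hreg : G.IsRegularOfDegree d)
    (hs : SpectralGap G ((d : ℝ) / 25)) (L C : Finset V)
    (hL : 25 * L.card ≤ Fintype.card V) (hC : C.card ≤ 12 * L.card) :
    2 * (L.card : ℝ) ≤ ∑ x ∈ Cᶜ, min 1 (8 / (d : ℝ) * (eN G L x : ℝ)) := by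
  rcases Nat.eq_zero_or_pos L.card with h0 | hpos
  · rw [h0]
    simp only [Nat.cast_zero, mul_zero]
    apply Finset.sum_nonneg
    intro x _
    positivity
  have hNpos : 0 < Fintype.card V := by omega
  have hN : (0 : ℝ) < Fintype.card V := by exact_mod_cast hNpos
  have hdR : (0 : ℝ) < d := by exact_mod_cast hd
  have hmix := mixing_sq G hreg hs L C
  have hsq := sum_eN_sq G hreg hs L
  have hsum := sum_eN G hreg L
  have hLR : 25 * (L.card : ℝ) ≤ Fintype.card V := by exact_mod_cast hL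
  have hCR : (C.card : ℝ) ≤ 12 * L.card := by exact_mod_cast hC
  have hlpos : (0 : ℝ) < L.card := by exact_mod_cast hpos
  have hc0 : (0 : ℝ) ≤ C.card := by positivity
  set N : ℝ := (Fintype.card V : ℝ) with hNdef
  set l : ℝ := (L.card : ℝ) with hl
  set c : ℝ := (C.card : ℝ) with hc
  set SC : ℝ := ∑ x ∈ C, (eN G L x : ℝ) with hSC
  -- bound for the edges into C
  have hlN : l / N ≤ 1 / 25 := by
    rw [div_le_div_iff₀ hN (by norm_num)]
    linarith
  have b1 : (d : ℝ) * l * c / N ≤ 0.48 * (d * l) := by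
    have : (d : ℝ) * l * c / N = (d * l) * (c * (1 / N)) := by ring
    rw [this, mul_comm (0.48 : ℝ)]
    apply mul_le_mul_of_nonneg_left _ (by positivity)
    calc c * (1 / N) ≤ 12 * l * (1 / N) := by gcongr
      _ = 12 * (l / N) := by ring
      _ ≤ 12 * (1 / 25) := by gcongr
      _ = 0.48 := by norm_num
  have b2 : SC - d * l * c / N ≤ 0.14 * (d * l) := by
    by_contra hcon
    push Not at hcon
    have hp : (0 : ℝ) ≤ 0.14 * (d * l) := by positivity
    have h1 : (0.14 * (d * l)) ^ 2 < (SC - d * l * c / N) ^ 2 := by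
      apply pow_lt_pow_left₀ hcon hp (by norm_num)
    have h2 : ((d : ℝ) / 25) ^ 2 * l * c ≤ ((d : ℝ) / 25) ^ 2 * l * (12 * l) := by gcongr
    have h3 : ((d : ℝ) / 25) ^ 2 * l * (12 * l) ≤ (0.14 * (d * l)) ^ 2 := by
      have : (0 : ℝ) ≤ (d * l) ^ 2 := by positivity
      nlinarith
    linarith
  have b3 : SC ≤ 0.62 * (d * l) := by linarith
  -- second moment
  have b4 : ∑ x, (eN G L x : ℝ) ^ 2 ≤ 0.0416 * ((d : ℝ) ^ 2 * l) := by
    have h1 : (d : ℝ) ^ 2 * l ^ 2 / N = (d : ℝ) ^ 2 * l * (l / N) := by ring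
    have h2 : (d : ℝ) ^ 2 * l * (l / N) ≤ (d : ℝ) ^ 2 * l * (1 / 25) := by gcongr
    have h3 : (0 : ℝ) ≤ (d : ℝ) ^ 2 * l := by positivity
    rw [h1] at hsq
    nlinarith
  -- complement sums
  have c1 : ∑ x ∈ Cᶜ, (eN G L x : ℝ) = d * l - SC := by
    rw [← hsum, hSC, ← Finset.sum_compl_add_sum C]
    ring
  have c2 : ∑ x ∈ Cᶜ, (eN G L x : ℝ) ^ 2 ≤ ∑ x, (eN G L x : ℝ) ^ 2 := by
    apply Finset.sum_le_sum_of_subset_of_nonneg (Finset.subset_univ _)
    intro _ _ _
    positivity
  calc 2 * l ≤ 8 / (d : ℝ) * (d * l - SC) - 16 / (d : ℝ) ^ 2 * ∑ x ∈ Cᶜ, (eN G L x : ℝ) ^ 2 := by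
        have e1 : 8 / (d : ℝ) * (0.38 * (d * l)) ≤ 8 / (d : ℝ) * (d * l - SC) := by
          apply mul_le_mul_of_nonneg_left _ (by positivity)
          linarith
        have e2 : 16 / (d : ℝ) ^ 2 * ∑ x ∈ Cᶜ, (eN G L x : ℝ) ^ 2
            ≤ 16 / (d : ℝ) ^ 2 * (0.0416 * ((d : ℝ) ^ 2 * l)) := by
          apply mul_le_mul_of_nonneg_left _ (by positivity)
          linarith
        have e3 : 8 / (d : ℝ) * (0.38 * (d * l)) = 3.04 * l := by
          field_simp
          ring
        have e4 : 16 / (d : ℝ) ^ 2 * (0.0416 * ((d : ℝ) ^ 2 * l)) = 0.6656 * l := by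
          field_simp
          ring
        linarith
    _ = ∑ x ∈ Cᶜ, (8 / (d : ℝ) * (eN G L x : ℝ) - (8 / (d : ℝ) * (eN G L x : ℝ)) ^ 2 / 4) := by
        rw [Finset.sum_sub_distrib, ← Finset.mul_sum, c1, Finset.mul_sum]
        congr 1
        apply Finset.sum_congr rfl
        intro x _
        ring
    _ ≤ ∑ x ∈ Cᶜ, min 1 (8 / (d : ℝ) * (eN G L x : ℝ)) :=
        Finset.sum_le_sum fun x _ => min_one_ge _

/-- (H2): two sets of more than `N/25` vertices span an edge. -/
theorem exists_adj {d : ℕ} (hd : 0 < d) (hreg : G.IsRegularOfDegree d)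
    (hs : SpectralGap G ((d : ℝ) / 25)) (L L' : Finset V)
    (hL : Fintype.card V < 25 * L.card) (hL' : Fintype.card V < 25 * L'.card) :
    ∃ a ∈ L, ∃ b ∈ L', G.Adj a b := by
  by_contra hcon
  push Not at hcon
  have hz : ∑ x ∈ L', (eN G L x : ℝ) = 0 := by
    apply Finset.sum_eq_zero
    intro x hx
    have : eN G L x = 0 := by
      unfold eN
      rw [Finset.card_eq_zero, Finset.eq_empty_iff_forall_notMem]
      intro w hw
      rw [Finset.mem_inter, SimpleGraph.mem_neighborFinset] at hw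
      exact hcon w hw.2 x hx hw.1.symm
    rw [this, Nat.cast_zero]
  have hmix := mixing_sq G hreg hs L L'
  rw [hz] at hmix
  have hlpos : 0 < L.card := by omega
  have hl'pos : 0 < L'.card := by omega
  have hNpos : 0 < Fintype.card V := lt_of_lt_of_le hlpos (Finset.card_le_univ L)
  have hN : (0 : ℝ) < Fintype.card V := by exact_mod_cast hNpos
  have hdR : (0 : ℝ) < d := by exact_mod_cast hd
  have hLR : (Fintype.card V : ℝ) < 25 * L.card := by exact_mod_cast hL
  have hLR' : (Fintype.card V : ℝ) < 25 * L'.card := by exact_mod_cast hL'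
  have h1 : (0 : ℝ) < L.card := by exact_mod_cast hlpos
  have h2 : (0 : ℝ) < L'.card := by exact_mod_cast hl'pos
  set N : ℝ := (Fintype.card V : ℝ) with hNdef
  set l : ℝ := (L.card : ℝ) with hl
  set l' : ℝ := (L'.card : ℝ) with hl'
  have h3 : (0 - (d : ℝ) * l * l' / N) ^ 2 = (d : ℝ) ^ 2 * l * l' * (l * l' / N ^ 2) := by
    field_simp
    ring
  have h4 : ((d : ℝ) / 25) ^ 2 * l * l' = (d : ℝ) ^ 2 * l * l' * (1 / 625) := by ring
  rw [h3, h4] at hmix
  have h5 : l * l' / N ^ 2 ≤ 1 / 625 := le_of_mul_le_mul_left hmix (by positivity)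
  rw [div_le_div_iff₀ (by positivity) (by norm_num)] at h5
  nlinarith

end Vale.Agent.Lib.P308F.Sp
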