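import Vale.Agent.Lib.P308F.Defs

namespace Vale.Agent.Lib.P308F

open Finset Vale.Agent.Lib.P308 Vale.Agent.Lib.P308E

variable {V : Type*} [Fintype V] [DecidableEq V] (G : SimpleGraph V) [DecidableRel G.Adj]

theorem wtS_lowerH {p : ℝ} (hp : 0 ≤ p) (σ : V → V) (hσ : ∀ z, σ (σ z) = z) (g I h : ℕ) (E : ℝ)
    (hg : 2 ≤ g) (h1 : FracExpH G p g I h) (h2 : JoinedE G (h * g ^ I) E)
    (C L L' : Finset V) (hL : L.card = h) (hL' : L'.card = h) (hC : C.card ≤ 8 * h) :
    p * E ≤ wtS G p σ (2 * I) C L L' := by
  classical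
  have σinj : Function.Injective σ := fun x y hxy => by
    have := congrArg σ hxy; rwa [hσ, hσ] at this
  have stepL : ∀ (k : ℕ) (C L L' : Finset V) (i : ℕ), L.card = h * g ^ i → i + 1 ≤ I →
      L'.card ≤ g * L.card → C.card ≤ 4 * L.card + 4 * L'.card →
      (∀ C2 L2 : Finset V, L2.card = h * g ^ (i + 1) → C2.card ≤ 4 * L'.card + 4 * L2.card →
        p * E ≤ wtS G p σ k C2 L' L2) → p * E ≤ wtS G p σ (k + 1) C L L' := by
    intro k C L L' i hL hi hL' hC hnext
    have hgL : g * L.card = h * g ^ (i + 1) := by rw [hL, pow_succ]; ring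
    apply wtS_step G hp σ hσ k C L L' (g * L.card) (p * E)
    · apply h1 L C
      · rw [hL]
        exact Nat.le_mul_of_pos_right h (Nat.pow_pos (by omega))
      · rw [hgL]
        exact Nat.mul_le_mul_left h (Nat.pow_le_pow_right (by omega) hi)
      · calc C.card ≤ 4 * L.card + 4 * L'.card := hC
          _ ≤ 4 * L.card + 4 * (g * L.card) := by omega
          _ = (4 + 4 * g) * L.card := by ring
    · intro Y _ hY
      have hcard : (Y.image σ).card = h * g ^ (i + 1) := by
        rw [Finset.card_image_of_injective _ σinj, hY, hgL]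
      apply hnext _ _ hcard
      have c1 : (C ∪ Y ∪ Y.image σ).card ≤ C.card + Y.card + (Y.image σ).card :=
        le_trans (Finset.card_union_le _ _) (Nat.add_le_add_right (Finset.card_union_le _ _) _)
      have c2 : 2 * L.card ≤ g * L.card := Nat.mul_le_mul_right _ hg
      rw [hcard] at c1 ⊢
      rw [hY, hgL] at c1
      rw [hgL] at c2
      omega
  have hev0 : ∀ C L L' : Finset V, L.card = h * g ^ I → L'.card = h * g ^ I →
      p * E ≤ wtS G p σ 0 C L L' := by
    intro C L L' hL hL'
    have hj := h2 L L' hL hL'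
    unfold wtS
    have e1 : ∑ a ∈ L, ∑ b ∈ L', wt G p σ 0 C a b
        = p * ∑ a ∈ L, ∑ b ∈ L', (if G.Adj a b then (1 : ℝ) else 0) := by
      rw [Finset.mul_sum]
      apply Finset.sum_congr rfl
      intro a _
      rw [Finset.mul_sum]
      apply Finset.sum_congr rfl
      intro b _
      simp only [wt]
      split_ifs <;> simp
    rw [e1]
    exact mul_le_mul_of_nonneg_left hj hp
  have key : ∀ j,
      (∀ i, i + j = I → ∀ C L L' : Finset V, L.card = h * g ^ i → L'.card = h * g ^ i →
        C.card ≤ 4 * L.card + 4 * L'.card → p * E ≤ wtS G p σ (2 * j) C L L') ∧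
      (∀ i, i + 1 + j = I → ∀ C L L' : Finset V, L.card = h * g ^ i →
        L'.card = h * g ^ (i + 1) →
        C.card ≤ 4 * L.card + 4 * L'.card → p * E ≤ wtS G p σ (2 * j + 1) C L L') := by
    have oddOf : ∀ j,
        (∀ i, i + j = I → ∀ C L L' : Finset V, L.card = h * g ^ i → L'.card = h * g ^ i →
          C.card ≤ 4 * L.card + 4 * L'.card → p * E ≤ wtS G p σ (2 * j) C L L') →
        (∀ i, i + 1 + j = I → ∀ C L L' : Finset V, L.card = h * g ^ i →
          L'.card = h * g ^ (i + 1) →
          C.card ≤ 4 * L.card + 4 * L'.card → p * E ≤ wtS G p σ (2 * j + 1) C L L') := by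
      intro j hev i hi C L L' hL hL' hC
      apply stepL (2 * j) C L L' i hL (by omega) _ hC
      · intro C2 L2 hL2 hC2
        exact hev (i + 1) (by omega) C2 L' L2 hL' hL2 hC2
      · rw [hL, hL', pow_succ]; exact le_of_eq (by ring)
    intro j
    induction j with
    | zero =>
      have hev : ∀ i, i + 0 = I → ∀ C L L' : Finset V, L.card = h * g ^ i →
          L'.card = h * g ^ i →
          C.card ≤ 4 * L.card + 4 * L'.card → p * E ≤ wtS G p σ (2 * 0) C L L' := by
        intro i hi C L L' hL hL' _
        have : i = I := by omega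
        subst this
        exact hev0 C L L' hL hL'
      exact ⟨hev, oddOf 0 hev⟩
    | succ j ih =>
      have hev : ∀ i, i + (j + 1) = I → ∀ C L L' : Finset V, L.card = h * g ^ i →
          L'.card = h * g ^ i →
          C.card ≤ 4 * L.card + 4 * L'.card → p * E ≤ wtS G p σ (2 * (j + 1)) C L L' := by
        intro i hi C L L' hL hL' hC
        have e : 2 * (j + 1) = (2 * j + 1) + 1 := by ring
        rw [e]
        apply stepL (2 * j + 1) C L L' i hL (by omega) _ hC
        · intro C2 L2 hL2 hC2
          exact ih.2 i (by omega) C2 L' L2 hL' hL2 hC2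
        · rw [hL, hL']
          calc h * g ^ i = 1 * (h * g ^ i) := by ring
            _ ≤ g * (h * g ^ i) := Nat.mul_le_mul_right _ (by omega)
      exact ⟨hev, oddOf (j + 1) hev⟩
  exact (key I).1 0 (by omega) C L L' (by simpa using hL) (by simpa using hL') (by omega)

end Vale.Agent.Lib.P308F
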