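import Vale.Agent.Lib.P308F.Defs

namespace Vale.Agent.Lib.P308F

open Finset Vale.Agent.Lib.P308 Vale.Agent.Lib.P308E

variable {V : Type*} [Fintype V] [DecidableEq V] (G : SimpleGraph V) [DecidableRel G.Adj]

theorem isStateH_mv {c : ℕ} {σ : V → V} {a b x : V} (h : IsStateH G c σ a b) (hx : G.Adj a x)
    (hxf : σ x ≠ x) : IsStateH G c (mv σ a x) b (σ x) := by
  obtain ⟨⟨hinv, hadj⟩, hab, hfa, hfb, hcard⟩ := h
  have hxa : x ≠ a := hx.ne'
  have hyx : σ x ≠ x := hxf
  have hinj : ∀ u v, σ u = σ v → u = v := by
    intro u v huv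
    have : σ (σ u) = σ (σ v) := by rw [huv]
    rwa [hinv, hinv] at this
  have hya : σ x ≠ a := by
    intro hh
    apply hxa
    apply hinj
    rw [hh, hfa]
  have hxb : x ≠ b := by
    intro hh
    apply hxf
    rw [hh, hfb]
  have hyb : σ x ≠ b := by
    intro hh
    apply hxb
    apply hinj
    rw [hh, hfb]
  refine ⟨⟨?_, ?_⟩, fun hh => hyb hh.symm, ?_, ?_, ?_⟩
  · intro z
    by_cases h1 : z = a
    · subst h1
      rw [mv_self_a, mv_x σ hxa]
    by_cases h2 : z = x
    · subst h2
      rw [mv_x σ hxa, mv_self_a]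
    by_cases h3 : z = σ x
    · subst h3
      rw [mv_y σ hya hyx, mv_y σ hya hyx]
    rw [mv_other σ h1 h2 h3]
    have k1 : σ z ≠ a := by
      intro hh
      apply h1
      apply hinj
      rw [hh, hfa]
    have k2 : σ z ≠ x := by
      intro hh
      apply h3
      rw [← hh, hinv]
    have k3 : σ z ≠ σ x := fun hh => h2 (hinj _ _ hh)
    rw [mv_other σ k1 k2 k3, hinv]
  · intro z hz
    by_cases h1 : z = a
    · subst h1
      rw [mv_self_a]
      exact hx
    by_cases h2 : z = x
    · subst h2
      rw [mv_x σ hxa]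
      exact hx.symm
    by_cases h3 : z = σ x
    · subst h3
      exact absurd (mv_y σ hya hyx) hz
    rw [mv_other σ h1 h2 h3] at hz ⊢
    exact hadj z hz
  · rw [mv_other σ (Ne.symm hab) (Ne.symm hxb) (Ne.symm hyb), hfb]
  · exact mv_y σ hya hyx
  · have hset : holes (mv σ a x) = insert (σ x) ((holes σ).erase a) := by
      ext z
      simp only [holes, mem_filter, mem_univ, true_and, mem_insert, mem_erase]
      by_cases h1 : z = a
      · subst h1
        rw [mv_self_a]
        constructor
        · intro hh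
          exact absurd hh hxa
        · rintro (hh | hh)
          · exact absurd hh.symm hya
          · exact absurd rfl hh.1
      by_cases h2 : z = x
      · subst h2
        rw [mv_x σ hxa]
        constructor
        · intro hh
          exact absurd hh.symm hxa
        · rintro (hh | hh)
          · exact absurd hh.symm hyx
          · exact absurd hh.2 hyx
      by_cases h3 : z = σ x
      · subst h3
        rw [mv_y σ hya hyx]
        simp
      rw [mv_other σ h1 h2 h3]
      constructor
      · intro hh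
        exact Or.inr ⟨h1, hh⟩
      · rintro (hh | hh)
        · exact absurd hh h3
        · exact hh.2
    have hamem : a ∈ holes σ := by simp [holes, hfa]
    have hynot : σ x ∉ (holes σ).erase a := by
      simp only [holes, mem_erase, mem_filter, mem_univ, true_and, not_and]
      intro _ hh
      rw [hinv] at hh
      exact hyx hh.symm
    rw [hset, card_insert_of_notMem hynot, card_erase_of_mem hamem, hcard]
    have : 0 < (holes σ).card := card_pos.2 ⟨a, hamem⟩
    omega

theorem mv_injH {σ σ' : V → V} {a a' x : V} (hσ : ∀ z, σ (σ z) = z) (hσ' : ∀ z, σ' (σ' z) = z)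
    (ha : σ a = a) (ha' : σ' a' = a') (hx : x ≠ a) (hx' : x ≠ a') (hxf : σ x ≠ x)
    (hxf' : σ' x ≠ x) (h1 : mv σ a x = mv σ' a' x) (h2 : σ x = σ' x) : σ = σ' ∧ a = a' := by
  have haa : a = a' := by
    have := congrFun h1 x
    rwa [mv_x σ hx, mv_x σ' hx'] at this
  subst haa
  refine ⟨?_, rfl⟩
  funext z
  by_cases k1 : z = a
  · subst k1
    rw [ha, ha']
  by_cases k2 : z = x
  · subst k2
    exact h2
  by_cases k3 : z = σ x
  · subst k3
    rw [hσ x, h2, hσ' x]
  have := congrFun h1 z
  rwa [mv_other σ k1 k2 k3, mv_other σ' k1 k2 (h2 ▸ k3)] at this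

end Vale.Agent.Lib.P308F
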