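import Vale.Agent.Lib.P308F.CompareH
import Vale.Agent.Lib.P308F.LowerH

namespace Vale.Agent.Lib.P308F

open Finset Vale.Agent.Lib.P308 Vale.Agent.Lib.P308E

variable {V : Type*} [Fintype V] [DecidableEq V] (G : SimpleGraph V) [DecidableRel G.Adj]

theorem perInv {p : ℝ} (hp : 0 ≤ p) (σ : V → V) (hσ : IsM G σ) (g I h : ℕ) (E : ℝ)
    (hc : (holes σ).card = 2 * h) (hg : 2 ≤ g) (h1 : FracExpH G p g I h)
    (h2 : JoinedE G (h * g ^ I) E) :
    p * E ≤ ∑ a ∈ holes σ, ∑ b ∈ (holes σ).erase a, wbH G p (2 * I) σ a b := by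
  classical
  obtain ⟨H1, hH1sub, hH1card⟩ := Finset.exists_subset_card_eq (s := holes σ) (n := h)
    (by omega)
  set H2 := holes σ \ H1 with hH2
  have hH2card : H2.card = h := by
    rw [hH2, Finset.card_sdiff_of_subset hH1sub, hc, hH1card]; omega
  have hH2sub : H2 ⊆ holes σ := Finset.sdiff_subset
  have hlow := wtS_lowerH G hp σ hσ.1 g I h E hg h1 h2 (holes σ) H1 H2 hH1card hH2card
    (by rw [hc]; omega)
  have hfix : ∀ z, z ∈ holes σ ↔ σ z = z := by
    intro z; simp [holes]
  refine le_trans hlow ?_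
  unfold wtS
  calc ∑ a ∈ H1, ∑ b ∈ H2, wt G p σ (2 * I) (holes σ) a b
      ≤ ∑ a ∈ H1, ∑ b ∈ H2, wbH G p (2 * I) σ a b := by
        apply Finset.sum_le_sum
        intro a ha
        apply Finset.sum_le_sum
        intro b hb
        have haH : a ∈ holes σ := hH1sub ha
        have hbH : b ∈ holes σ := hH2sub hb
        have hab : a ≠ b := by
          intro hab
          rw [hH2, mem_sdiff] at hb
          exact hb.2 (hab ▸ ha)
        apply wt_le_wbH G hp (2 * h) σ hσ.1 (2 * I) σ a b (holes σ)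
          ⟨hσ, hab, (hfix a).1 haH, (hfix b).1 hbH, hc⟩ haH hbH (fun z _ => rfl)
        · intro z hz
          rw [(hfix z).1 hz]; exact hz
        · intro z hz
          exact (hfix z).2 hz
    _ ≤ ∑ a ∈ H1, ∑ b ∈ (holes σ).erase a, wbH G p (2 * I) σ a b := by
        apply Finset.sum_le_sum
        intro a ha
        apply Finset.sum_le_sum_of_subset_of_nonneg
        · intro b hb
          rw [mem_erase]
          refine ⟨?_, hH2sub hb⟩
          intro hba
          rw [hH2, mem_sdiff] at hb
          exact hb.2 (hba ▸ ha)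
        · intro b _ _
          exact wbH_nonneg G hp _ _ _ _
    _ ≤ ∑ a ∈ holes σ, ∑ b ∈ (holes σ).erase a, wbH G p (2 * I) σ a b := by
        apply Finset.sum_le_sum_of_subset_of_nonneg hH1sub
        intro a _ _
        apply Finset.sum_nonneg
        intro b _
        exact wbH_nonneg G hp _ _ _ _

end Vale.Agent.Lib.P308F
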