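import Vale.Agent.Lib.P308F.RatioSpec
import Vale.Agent.Lib.P308F.Fact

namespace Vale.Agent.Lib.P308F

open Finset Vale.Agent.Lib.P308 Vale.Agent.Lib.P308E

variable {V : Type*} [Fintype V] [DecidableEq V] (G : SimpleGraph V) [DecidableRel G.Adj]

theorem prod_aux {d : ℕ} (hd : 0 < d) (hreg : G.IsRegularOfDegree d)
    (h : SpecBound G ((d : ℝ) / 50)) (n : ℕ) (hN : Fintype.card V = 2 * n) (k : ℕ) (hk : k ≤ n) :
    (d : ℝ) ^ k * (((n.descFactorial k : ℕ) : ℝ) / (2 * n : ℝ) ^ k) ^ 6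
      ≤ ((Mat G (2 * (n - k))).ncard : ℝ) := by
  induction k with
  | zero =>
    have h1 := one_le_mat_card G
    rw [hN] at h1
    simp only [pow_zero, Nat.descFactorial_zero, Nat.cast_one, div_one, one_pow, mul_one,
      Nat.sub_zero]
    exact_mod_cast h1
  | succ k ih =>
    have ih' := ih (by omega)
    obtain ⟨h', e1⟩ : ∃ h', n - k = h' + 1 := ⟨n - k - 1, by omega⟩
    have e2 : n - (k + 1) = h' := by omega
    have hr := ratio_spec G hd hreg h h' (by rw [hN]; omega)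
    rw [e1] at ih'
    rw [e2]
    have hcard : ((Fintype.card V : ℕ) : ℝ) = 2 * (n : ℝ) := by rw [hN]; push_cast; ring
    rw [hcard] at hr
    have hn0 : (0 : ℝ) < 2 * (n : ℝ) := by
      have : 0 < n := by omega
      positivity
    have hdf : ((n.descFactorial (k + 1) : ℕ) : ℝ) = ((h' + 1 : ℕ) : ℝ) * (n.descFactorial k : ℝ) := by
      rw [Nat.descFactorial_succ, e1]; push_cast; ring
    have hc : (0 : ℝ) ≤ (d : ℝ) * (((h' + 1 : ℕ) : ℝ) / (2 * (n : ℝ))) ^ 6 := by positivity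
    calc (d : ℝ) ^ (k + 1) * (((n.descFactorial (k + 1) : ℕ) : ℝ) / (2 * n : ℝ) ^ (k + 1)) ^ 6
        = (d : ℝ) * (((h' + 1 : ℕ) : ℝ) / (2 * (n : ℝ))) ^ 6 *
            ((d : ℝ) ^ k * (((n.descFactorial k : ℕ) : ℝ) / (2 * n : ℝ) ^ k) ^ 6) := by
          have e3 : (((h' + 1 : ℕ) : ℝ) * (n.descFactorial k : ℝ)) / (2 * n : ℝ) ^ (k + 1)
              = (((h' + 1 : ℕ) : ℝ) / (2 * (n : ℝ))) * ((n.descFactorial k : ℝ) / (2 * n : ℝ) ^ k) := by
            rw [pow_succ, mul_comm ((2 * n : ℝ) ^ k) (2 * n : ℝ), mul_div_mul_comm]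
          rw [hdf, e3, mul_pow, pow_succ]; ring
      _ ≤ (d : ℝ) * (((h' + 1 : ℕ) : ℝ) / (2 * (n : ℝ))) ^ 6 *
            ((Mat G (2 * (h' + 1))).ncard : ℝ) := mul_le_mul_of_nonneg_left ih' hc
      _ ≤ _ := hr

theorem prod_bound {d : ℕ} (hd : 0 < d) (hreg : G.IsRegularOfDegree d)
    (h : SpecBound G ((d : ℝ) / 50)) (n : ℕ) (hN : Fintype.card V = 2 * n) :
    (d : ℝ) ^ n * ((n.factorial : ℝ) / (2 * n : ℝ) ^ n) ^ 6 ≤ (Mat G 0).ncard := by
  have := prod_aux G hd hreg h n hN n le_rfl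
  rwa [Nat.descFactorial_self, Nat.sub_self, Nat.mul_zero] at this

theorem finalH {d : ℕ} (hd : 0 < d) (hreg : G.IsRegularOfDegree d)
    (h : SpecBound G ((d : ℝ) / 50)) (n : ℕ) (hN : Fintype.card V = 2 * n) :
    ((d : ℝ) / 46656) ^ n ≤ ({M : G.Subgraph | M.IsPerfectMatching}.ncard : ℝ) := by
  have h1 := prod_bound G hd hreg h n hN
  rw [mat_zero] at h1
  refine le_trans ?_ h1
  have hpos : (0 : ℝ) < (2 * n : ℝ) ^ n := by
    rcases Nat.eq_zero_or_pos n with rfl | hn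
    · simp
    · have : (0 : ℝ) < n := by exact_mod_cast hn
      positivity
  have h2 : ((n : ℝ)) ^ n ≤ (n.factorial : ℝ) * 3 ^ n := by exact_mod_cast pow_le_fact_mul n
  have h3 : (1 / 6 : ℝ) ^ n ≤ (n.factorial : ℝ) / (2 * n : ℝ) ^ n := by
    rw [le_div_iff₀ hpos, mul_pow, one_div, inv_pow]
    have h6 : (6 : ℝ) ^ n = 2 ^ n * 3 ^ n := by rw [← mul_pow]; norm_num
    rw [h6, inv_mul_le_iff₀ (by positivity)]
    calc (2 : ℝ) ^ n * (n : ℝ) ^ n ≤ 2 ^ n * ((n.factorial : ℝ) * 3 ^ n) :=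
          mul_le_mul_of_nonneg_left h2 (by positivity)
      _ = 2 ^ n * 3 ^ n * (n.factorial : ℝ) := by ring
  calc ((d : ℝ) / 46656) ^ n = (d : ℝ) ^ n * ((1 / 6 : ℝ) ^ n) ^ 6 := by
        have e4 : ((1 / 6 : ℝ) ^ n) ^ 6 = (1 / 46656 : ℝ) ^ n := by
          rw [← pow_mul, mul_comm, pow_mul]; norm_num
        rw [e4, div_eq_mul_one_div, mul_pow]
    _ ≤ (d : ℝ) ^ n * ((n.factorial : ℝ) / (2 * n : ℝ) ^ n) ^ 6 := by
        apply mul_le_mul_of_nonneg_left _ (by positivity)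
        exact pow_le_pow_left₀ (by positivity) h3 6

end Vale.Agent.Lib.P308F
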