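import Vale.Agent.Lib.P308F.Defs
import Vale.Agent.Lib.P308F.Growth

namespace Vale.Agent.Lib.P308F

open Finset Vale.Agent.Lib.P308 Vale.Agent.Lib.P308E

variable {V : Type*} [Fintype V] [DecidableEq V] (G : SimpleGraph V) [DecidableRel G.Adj]

/-- Lower half of the expander mixing lemma for two sets of the same size. -/
theorem spec_joinedE {d : ℕ} (hreg : G.IsRegularOfDegree d) (h : SpecBound G ((d : ℝ) / 50))
    (s : ℕ) (hs : Fintype.card V ≤ 25 * s) :
    JoinedE G s ((d : ℝ) * (s : ℝ) ^ 2 / (2 * Fintype.card V)) := by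
  intro S T hS hT
  have h1 : ∀ a ∈ S, ∑ b ∈ T, (if G.Adj a b then (1 : ℝ) else 0)
      = ((G.neighborFinset a ∩ T).card : ℝ) := by
    intro a _
    rw [Finset.sum_ite, Finset.sum_const, Finset.sum_const_zero, add_zero, nsmul_eq_mul, mul_one]
    congr 2
    ext w
    simp [and_comm]
  rw [Finset.sum_congr rfl h1]
  rcases Nat.eq_zero_or_pos (Fintype.card V) with h0 | hpos
  · rw [h0]
    simp only [Nat.cast_zero, mul_zero, div_zero]
    positivity
  have hN : (0 : ℝ) < Fintype.card V := by exact_mod_cast hpos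
  have hmix := spec_mixing G hreg (by positivity : (0 : ℝ) ≤ (d : ℝ) / 50) h T S
  rw [hS, hT] at hmix
  have hsq : Real.sqrt ((s : ℝ) * s) = s := by
    rw [Real.sqrt_mul_self (by positivity)]
  rw [hsq] at hmix
  have hlow := (abs_le.mp hmix).1
  have hsR : (Fintype.card V : ℝ) ≤ 25 * s := by exact_mod_cast hs
  set N : ℝ := (Fintype.card V : ℝ) with hNdef
  set e : ℝ := ∑ x ∈ S, ((G.neighborFinset x ∩ T).card : ℝ) with he
  rw [div_le_iff₀ (by positivity)]
  have hd0 : (0 : ℝ) ≤ d := by positivity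
  have hs0 : (0 : ℝ) ≤ s := by positivity
  have h2 : (d : ℝ) / 50 * s * N ≤ (d : ℝ) / 50 * s * (25 * s) := by gcongr
  nlinarith

theorem spec_fracExpH {d : ℕ} (hd : 0 < d) (hreg : G.IsRegularOfDegree d)
    (h : SpecBound G ((d : ℝ) / 50)) (I h' : ℕ) (hh : 1 ≤ h')
    (hI : I = 0 ∨ 25 * (h' * 2 ^ I) < 2 * Fintype.card V) : FracExpH G (8 / d) 2 I h' := by
  intro L C hL1 hL2 hC
  have hgap : Sp.SpectralGap G ((d : ℝ) / 25) := by
    intro f hf
    have := h f hf
    unfold Sp.Aop
    refine this.trans ?_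
    have h0 : (0 : ℝ) ≤ ∑ v, f v ^ 2 := Finset.sum_nonneg fun _ _ => by positivity
    have hd0 : (0 : ℝ) ≤ d := by positivity
    have : ((d : ℝ) / 50) ^ 2 ≤ ((d : ℝ) / 25) ^ 2 := by
      apply pow_le_pow_left₀ (by positivity)
      linarith
    gcongr
  rcases hI with hI | hI
  · subst hI
    simp only [pow_zero, mul_one] at hL2
    omega
  · have hL : 25 * L.card ≤ Fintype.card V := by omega
    have hC' : C.card ≤ 12 * L.card := by omega
    have := Sp.growth G hd hreg hgap L C hL hC'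
    unfold Sp.eN at this
    push_cast
    exact this

end Vale.Agent.Lib.P308F
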