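import Vale.Agent.Lib.P308F.CombH
import Vale.Agent.Lib.P308F.SpecH

namespace Vale.Agent.Lib.P308F

open Finset Vale.Agent.Lib.P308 Vale.Agent.Lib.P308E

variable {V : Type*} [Fintype V] [DecidableEq V] (G : SimpleGraph V) [DecidableRel G.Adj]

theorem ratio_spec {d : ℕ} (hd : 0 < d) (hreg : G.IsRegularOfDegree d)
    (h : SpecBound G ((d : ℝ) / 50)) (h' : ℕ) (hN : 2 * (h' + 1) ≤ Fintype.card V) :
    (d : ℝ) * (((h' + 1 : ℕ) : ℝ) / Fintype.card V) ^ 6 * (Mat G (2 * (h' + 1))).ncard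
      ≤ (Mat G (2 * h')).ncard := by
  classical
  have hex : ∃ I : ℕ, Fintype.card V ≤ 25 * ((h' + 1) * 2 ^ I) := by
    refine ⟨Fintype.card V, ?_⟩
    have h1 : Fintype.card V < 2 ^ Fintype.card V := Nat.lt_two_pow_self
    have h2 : 2 ^ Fintype.card V ≤ (h' + 1) * 2 ^ Fintype.card V :=
      Nat.le_mul_of_pos_left _ (Nat.succ_pos _)
    omega
  obtain ⟨I, hI1, hI2⟩ : ∃ I : ℕ, Fintype.card V ≤ 25 * ((h' + 1) * 2 ^ I) ∧
      (I = 0 ∨ 25 * ((h' + 1) * 2 ^ I) < 2 * Fintype.card V) := by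
    refine ⟨Nat.find hex, Nat.find_spec hex, ?_⟩
    rcases Nat.eq_zero_or_pos (Nat.find hex) with h0 | hpos
    · exact Or.inl h0
    · right
      have hmin := Nat.find_min hex (Nat.sub_lt hpos Nat.one_pos)
      push Not at hmin
      obtain ⟨j, hj⟩ : ∃ j, Nat.find hex = j + 1 := ⟨Nat.find hex - 1, by omega⟩
      rw [hj] at hmin ⊢
      simp only [Nat.add_sub_cancel] at hmin
      rw [pow_succ]
      have : (h' + 1) * (2 ^ j * 2) = 2 * ((h' + 1) * 2 ^ j) := by ring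
      rw [this]
      omega
  have hNpos : 0 < Fintype.card V := by omega
  have hNR : (0 : ℝ) < Fintype.card V := by exact_mod_cast hNpos
  have hdR : (0 : ℝ) < d := by exact_mod_cast hd
  have hfrac := spec_fracExpH G hd hreg h I (h' + 1) (Nat.succ_pos _) hI2
  have hjoin := spec_joinedE G hreg h ((h' + 1) * 2 ^ I) hI1
  have hdeg : ∀ v, G.degree v ≤ d := fun v => (hreg v).le
  have hE : (0 : ℝ) ≤ (d : ℝ) * (((h' + 1) * 2 ^ I : ℕ) : ℝ) ^ 2 / (2 * Fintype.card V) := by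
    positivity
  have hmain := ratioH G (p := 8 / (d : ℝ)) (by positivity) d 2 I h' _ hE hdeg le_rfl hfrac hjoin
  have hpd : (8 / (d : ℝ) * d) = 8 := by field_simp
  rw [hpd] at hmain
  set N : ℝ := (Fintype.card V : ℝ) with hNdef
  set A : ℝ := ((Mat G (2 * (h' + 1))).ncard : ℝ) with hA
  set B : ℝ := ((Mat G (2 * h')).ncard : ℝ) with hB
  have hA0 : 0 ≤ A := by positivity
  have hB0 : 0 ≤ B := by positivity
  set k : ℝ := ((h' + 1 : ℕ) : ℝ) with hk
  have hk0 : 0 < k := by rw [hk]; positivity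
  set t : ℝ := (2 : ℝ) ^ I with ht
  have ht0 : 0 < t := by rw [ht]; positivity
  have hcast : (((h' + 1) * 2 ^ I : ℕ) : ℝ) = k * t := by
    rw [hk, ht]; push_cast; ring
  rw [hcast] at hmain
  have h8 : (8 : ℝ) ^ (2 * I) = t ^ 6 := by
    rw [ht, ← pow_mul, pow_mul, show (8 : ℝ) ^ 2 = 2 ^ 6 by norm_num, ← pow_mul, mul_comm 6 I]
  rw [h8] at hmain
  -- key numeric inequality
  have hkey : 2 * (k * t) ^ 4 ≤ N ^ 4 := by
    rcases hI2 with h0 | hlt
    · have ht1 : t = 1 := by rw [ht, h0, pow_zero]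
      have h2k : 2 * k ≤ N := by
        rw [hk, hNdef]; exact_mod_cast hN
      rw [ht1, mul_one]
      have : (2 * k) ^ 4 ≤ N ^ 4 := pow_le_pow_left₀ (by positivity) h2k 4
      nlinarith [pow_pos hk0 4]
    · have hlt' : 25 * (k * t) < 2 * N := by
        have : ((25 * ((h' + 1) * 2 ^ I) : ℕ) : ℝ) < ((2 * Fintype.card V : ℕ) : ℝ) := by
          exact_mod_cast hlt
        push_cast at this
        rw [hk, ht, hNdef]; push_cast; linarith
      have h3 : 2 * (k * t) ≤ N := by nlinarith [mul_pos hk0 ht0]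
      have : (2 * (k * t)) ^ 4 ≤ N ^ 4 := pow_le_pow_left₀ (by positivity) h3 4
      nlinarith [pow_pos (mul_pos hk0 ht0) 4]
  -- from hmain : A * (d * (k t)^2 / (2 N)) ≤ t^6 * (N * B)
  have h1 : A * (d * (k * t) ^ 2) ≤ 2 * N ^ 2 * t ^ 6 * B := by
    have : A * ((d : ℝ) * (k * t) ^ 2 / (2 * N)) * (2 * N) ≤ t ^ 6 * (N * B) * (2 * N) := by
      gcongr
    have e1 : A * ((d : ℝ) * (k * t) ^ 2 / (2 * N)) * (2 * N) = A * (d * (k * t) ^ 2) := by
      field_simp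
    rw [e1] at this
    nlinarith
  -- cancel t^2
  have h2 : A * (d * k ^ 2) ≤ 2 * N ^ 2 * t ^ 4 * B := by
    have ht2 : 0 < t ^ 2 := by positivity
    have : A * (d * k ^ 2) * t ^ 2 ≤ 2 * N ^ 2 * t ^ 4 * B * t ^ 2 := by
      calc A * (d * k ^ 2) * t ^ 2 = A * (d * (k * t) ^ 2) := by ring
        _ ≤ 2 * N ^ 2 * t ^ 6 * B := h1
        _ = 2 * N ^ 2 * t ^ 4 * B * t ^ 2 := by ring
    exact le_of_mul_le_mul_right this ht2
  -- conclude
  have h3 : (d : ℝ) * (k / N) ^ 6 * A = (A * (d * k ^ 2)) * k ^ 4 / N ^ 6 := by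
    rw [div_pow]; ring
  rw [h3, div_le_iff₀ (by positivity)]
  calc A * (d * k ^ 2) * k ^ 4 ≤ 2 * N ^ 2 * t ^ 4 * B * k ^ 4 := by gcongr
    _ = (2 * (k * t) ^ 4) * (N ^ 2 * B) := by ring
    _ ≤ N ^ 4 * (N ^ 2 * B) := by gcongr
    _ = B * N ^ 6 := by ring

end Vale.Agent.Lib.P308F
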