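import Vale.Agent.Lib.P308F.Defs

namespace Vale.Agent.Lib.P308F

open Finset Vale.Agent.Lib.P308 Vale.Agent.Lib.P308E

variable {V : Type*} [Fintype V] [DecidableEq V] (G : SimpleGraph V) [DecidableRel G.Adj]

/-- If `σ` codes the matching `M` then the holes of `σ` are the uncovered vertices of `M`. -/
theorem rep_holes {M : G.Subgraph} {σ : V → V} (h : Rep M σ) :
    (M.vertsᶜ).ncard = (holes σ).card := by
  have h1 : M.vertsᶜ = ((holes σ : Finset V) : Set V) := by
    ext v
    simp only [Set.mem_compl_iff, holes, coe_filter, mem_univ, true_and, Set.mem_ofPred_eq]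
    rw [h.1 v, not_not]
  rw [h1, Set.ncard_coe_finset]

/-- Every matching involution is the code of a matching subgraph. -/
theorem exists_subH {σ : V → V} (hσ : IsM G σ) :
    ∃ M : G.Subgraph, Rep M σ ∧ M.IsMatching := by
  refine ⟨{ verts := {v | σ v ≠ v}, Adj := fun x y => σ x = y ∧ x ≠ y, adj_sub := ?_,
            edge_vert := ?_, symm := ⟨fun x y h => ?_⟩ }, ⟨?_, ?_⟩, ?_⟩
  · rintro v w ⟨h, hne⟩
    subst h
    exact hσ.2 v hne.symm
  · rintro v w ⟨h, hne⟩
    subst h
    exact hne.symm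
  · obtain ⟨h1, h2⟩ := h
    refine ⟨?_, h2.symm⟩
    rw [← h1, hσ.1]
  · intro v
    exact Iff.rfl
  · intro x y
    exact Iff.rfl
  · intro v hv
    exact ⟨σ v, ⟨rfl, fun h => hv h.symm⟩, fun y hy => hy.1.symm⟩

theorem mat_le_invs (c : ℕ) : (Mat G c).ncard ≤ (Invs G c).card := by
  classical
  have hex : ∀ M ∈ Mat G c, ∃ s : V → V, s ∈ Invs G c ∧ Rep M s := by
    rintro M ⟨hM, hM2⟩
    obtain ⟨σ, hrep, hσ⟩ := exists_rep hM
    refine ⟨σ, ?_, hrep⟩
    simp only [Invs, mem_filter, mem_univ, true_and]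
    exact ⟨hσ, by rw [← rep_holes G hrep, hM2]⟩
  choose f hf1 hf2 using hex
  let g : (Mat G c) → (Invs G c) := fun M => ⟨f M.1 M.2, hf1 M.1 M.2⟩
  have hg : Function.Injective g := by
    intro M M' h
    have h0 : f M.1 M.2 = f M'.1 M'.2 := congrArg Subtype.val h
    have h1 := hf2 M.1 M.2
    have h2 := hf2 M'.1 M'.2
    rw [h0] at h1
    exact Subtype.ext (rep_sub_unique h1 h2)
  have := Nat.card_le_card_of_injective g hg
  rw [Nat.card_coe_set_eq, Nat.card_eq_fintype_card, Fintype.card_coe] at this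
  exact this

theorem mat_zero : Mat G 0 = {M : G.Subgraph | M.IsPerfectMatching} := by
  ext M
  simp only [Mat, Set.mem_ofPred_eq, SimpleGraph.Subgraph.IsPerfectMatching]
  constructor
  · rintro ⟨h1, h2⟩
    refine ⟨h1, ?_⟩
    rw [Set.ncard_eq_zero (Set.toFinite _)] at h2
    intro v
    by_contra hv
    have : v ∈ M.vertsᶜ := hv
    rw [h2] at this
    exact this
  · rintro ⟨h1, h2⟩
    refine ⟨h1, ?_⟩
    rw [Set.ncard_eq_zero (Set.toFinite _)]
    ext v
    simp only [Set.mem_compl_iff, Set.mem_empty_iff_false, iff_false, not_not]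
    exact h2 v

theorem one_le_mat_card : 1 ≤ (Mat G (Fintype.card V)).ncard := by
  have hmem : (⊥ : G.Subgraph) ∈ Mat G (Fintype.card V) := by
    refine ⟨?_, ?_⟩
    · intro v hv
      exact absurd hv (by simp)
    · simp [Set.ncard_univ, Nat.card_eq_fintype_card]
  have hfin : (Mat G (Fintype.card V)).Finite := Set.toFinite _
  exact (Set.ncard_pos hfin).2 ⟨_, hmem⟩

end Vale.Agent.Lib.P308F
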